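import Vale.Agent.P110.H880.Defs

/-! # P110: flat Littlewood polynomials have small autocorrelations and large Mahler measure -/

namespace Vale.Agent.P110.H880

open Polynomial Finset Real

variable {N : ℕ}

theorem eval_lw (a : Fin N → ℤˣ) (z : ℂ) :
    (lw a).eval z = ∑ k : Fin N, (((a k : ℤˣ) : ℤ) : ℂ) * z ^ (k : ℕ) := by
  simp [lw, eval_finset_sum]

/-- the reversed polynomial -/
noncomputable def rv (a : Fin N → ℤˣ) : Polynomial ℂ :=
  ∑ k : Fin N, Polynomial.C (((a k : ℤˣ) : ℤ) : ℂ) * Polynomial.X ^ (N - 1 - (k : ℕ))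

theorem eval_rv (a : Fin N → ℤˣ) {z : ℂ} (hz : ‖z‖ = 1) :
    (rv a).eval z = z ^ (N - 1) * (starRingEnd ℂ) ((lw a).eval z) := by
  have hzz : z * (starRingEnd ℂ) z = 1 := by
    rw [Complex.mul_conj, Complex.normSq_eq_norm_sq, hz]; simp
  rw [eval_lw, map_sum, Finset.mul_sum]
  simp only [rv, eval_finset_sum, eval_mul, eval_C, eval_pow, eval_X]
  refine Finset.sum_congr rfl fun k _ => ?_
  rw [map_mul, map_pow]
  have h1 : z ^ (N - 1) = z ^ (N - 1 - (k : ℕ)) * z ^ (k : ℕ) := by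
    rw [← pow_add]; congr 1; omega
  have h2 : (starRingEnd ℂ) (((a k : ℤˣ) : ℤ) : ℂ) = (((a k : ℤˣ) : ℤ) : ℂ) := by simp
  rw [h1, h2]
  calc (((a k : ℤˣ) : ℤ) : ℂ) * z ^ (N - 1 - (k : ℕ))
      = (((a k : ℤˣ) : ℤ) : ℂ) * z ^ (N - 1 - (k : ℕ)) * (z * (starRingEnd ℂ) z) ^ (k : ℕ) := by
        rw [hzz]; simp
    _ = _ := by rw [mul_pow]; ring

theorem norm_rv (a : Fin N → ℤˣ) {z : ℂ} (hz : ‖z‖ = 1) :
    ‖(rv a).eval z‖ = ‖(lw a).eval z‖ := by
  rw [eval_rv a hz, norm_mul, norm_pow, hz, one_pow, one_mul, RCLike.norm_conj]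

theorem coeff_mul (a : Fin N → ℤˣ) (k : ℕ) :
    (lw a * rv a).coeff (N - 1 + k) = ((acf a k : ℤ) : ℂ) := by
  unfold lw rv acf
  rw [Finset.sum_mul_sum]
  simp only [finset_sum_coeff]
  push_cast
  refine Finset.sum_congr rfl fun i _ => Finset.sum_congr rfl fun j _ => ?_
  have h1 : C (((a i : ℤˣ) : ℤ) : ℂ) * X ^ (i : ℕ) * (C (((a j : ℤˣ) : ℤ) : ℂ) * X ^ (N - 1 - (j : ℕ)))
      = C ((((a i : ℤˣ) : ℤ) : ℂ) * (((a j : ℤˣ) : ℤ) : ℂ)) * X ^ ((i : ℕ) + (N - 1 - (j : ℕ))) := by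
    rw [C_mul, pow_add]; ring
  rw [h1, coeff_C_mul_X_pow]
  have hj := j.2
  have h2 : (N - 1 + k = (i : ℕ) + (N - 1 - (j : ℕ))) ↔ ((i : ℕ) = (j : ℕ) + k) := by omega
  simp only [h2]

theorem acf_zero (a : Fin N → ℤˣ) : acf a 0 = N := by
  unfold acf
  have h : ∀ i : Fin N, (∑ j : Fin N, if (i : ℕ) = (j : ℕ) + 0 then
      ((a i : ℤˣ) : ℤ) * ((a j : ℤˣ) : ℤ) else 0) = 1 := by
    intro i
    rw [Finset.sum_eq_single i]
    · rw [if_pos (by simp), ← Units.val_mul, Int.units_mul_self]; rfl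
    · intro j _ hj
      rw [if_neg]
      intro h
      exact hj (Fin.ext (by omega))
    · intro h; exact absurd (Finset.mem_univ i) h
  rw [Finset.sum_congr rfl fun i _ => h i]
  simp

theorem autocorr (a : Fin N → ℤˣ) {B : ℝ} (hB0 : 0 ≤ B)
    (hB : ∀ z : ℂ, ‖z‖ = 1 → ‖(lw a).eval z‖ ≤ B) :
    (N : ℝ) ^ 2 + ∑ k ∈ Ico 1 N, ((acf a k : ℤ) : ℝ) ^ 2 ≤ B ^ 4 := by
  have hP := (lw a * rv a).sum_sq_norm_coeff_eq_circleAverage
  have h1 : Real.circleAverage (fun θ ↦ ‖(lw a * rv a).eval θ‖ ^ 2) 0 1 ≤ B ^ 4 := by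
    apply Real.circleAverage_mono_on_of_le_circle
    · apply ContinuousOn.circleIntegrable'
      exact (((lw a * rv a).continuous).norm.pow 2).continuousOn
    · intro z hz
      have hz' : ‖z‖ = 1 := by simpa using hz
      rw [eval_mul, norm_mul, norm_rv a hz']
      have h2 := hB z hz'
      have h3 := norm_nonneg ((lw a).eval z)
      calc (‖(lw a).eval z‖ * ‖(lw a).eval z‖) ^ 2 = ‖(lw a).eval z‖ ^ 4 := by ring
        _ ≤ B ^ 4 := pow_le_pow_left₀ h3 h2 4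
  rw [← hP] at h1
  refine le_trans ?_ h1
  set q := lw a * rv a with hq
  have h4 : ∀ T : Finset ℕ, ∑ i ∈ T, ‖q.coeff i‖ ^ 2 ≤ ∑ i ∈ q.support, ‖q.coeff i‖ ^ 2 := by
    intro T
    rw [← Finset.sum_filter_add_sum_filter_not T (fun i => i ∈ q.support)]
    have h5 : ∑ i ∈ T.filter (fun i => ¬ i ∈ q.support), ‖q.coeff i‖ ^ 2 = 0 := by
      apply Finset.sum_eq_zero
      intro i hi
      have := (mem_filter.1 hi).2
      rw [notMem_support_iff] at this
      rw [this]; simp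
    rw [h5, add_zero]
    apply Finset.sum_le_sum_of_subset_of_nonneg
    · intro i hi; exact (mem_filter.1 hi).2
    · intro i _ _; positivity
  have h6 := h4 ((range N).map (addLeftEmbedding (N - 1)))
  rw [Finset.sum_map] at h6
  refine le_trans (le_of_eq ?_) h6
  have h7 : ∀ k, ‖q.coeff (addLeftEmbedding (N - 1) k)‖ ^ 2 = ((acf a k : ℤ) : ℝ) ^ 2 := by
    intro k
    rw [addLeftEmbedding_apply, hq, coeff_mul, Complex.norm_intCast, sq_abs]
  simp only [h7]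
  rcases Nat.eq_zero_or_pos N with h0 | hpos
  · subst h0; simp
  · rw [Finset.range_eq_Ico, Finset.sum_eq_sum_Ico_succ_bot hpos, acf_zero]
    simp

theorem lw_ne_zero (a : Fin N → ℤˣ) (hN : 0 < N) : lw a ≠ 0 := by
  intro h
  have h1 : (lw a).coeff 0 = 0 := by rw [h]; simp
  have h2 : (lw a).coeff 0 = (((a ⟨0, hN⟩ : ℤˣ) : ℤ) : ℂ) := by
    unfold lw
    rw [finset_sum_coeff, Finset.sum_eq_single ⟨0, hN⟩]
    · simp
    · intro b _ hb
      rw [coeff_C_mul_X_pow, if_neg]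
      intro h; exact hb (Fin.ext h.symm)
    · intro h; exact absurd (Finset.mem_univ _) h
  rw [h2] at h1
  have h3 : ((a ⟨0, hN⟩ : ℤˣ) : ℤ) = 0 := by exact_mod_cast h1
  exact (a ⟨0, hN⟩).ne_zero h3

theorem mahler_ge (a : Fin N → ℤˣ) {b : ℝ} (hb : 0 < b)
    (h : ∀ z : ℂ, ‖z‖ = 1 → b ≤ ‖(lw a).eval z‖) : b ≤ (lw a).mahlerMeasure := by
  have hne : lw a ≠ 0 := by
    intro h0
    have := h 1 (by simp)
    rw [h0] at this
    simp at this
    linarith
  rw [mahlerMeasure_def_of_ne_zero hne]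
  have h1 : Real.log b ≤ (lw a).logMahlerMeasure := by
    rw [logMahlerMeasure_def, ← Real.circleAverage_const (Real.log b) 0 1]
    apply Real.circleAverage_mono
    · exact circleIntegrable_const _ _ _
    · exact intervalIntegrable_mahlerMeasure (lw a)
    · intro z hz
      have hz' : ‖z‖ = 1 := by simpa using hz
      exact Real.log_le_log hb (h z hz')
  rw [logMahlerMeasure_def] at h1
  calc b = Real.exp (Real.log b) := (Real.exp_log hb).symm
    _ ≤ _ := Real.exp_le_exp.2 h1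

end Vale.Agent.P110.H880
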