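import Mathlib

/-! # P110: Littlewood polynomials, aperiodic autocorrelations -/

namespace Vale.Agent.P110

/-- The Littlewood polynomial `∑_{k<N} a_k z^k`, as a polynomial. -/
noncomputable def lw {N : ℕ} (a : Fin N → ℤˣ) : Polynomial ℂ :=
  ∑ k : Fin N, Polynomial.C (((a k : ℤˣ) : ℤ) : ℂ) * Polynomial.X ^ (k : ℕ)

/-- The aperiodic autocorrelation `C_k = ∑_j a_j a_{j+k}` of a sign sequence. -/
def acf {N : ℕ} (a : Fin N → ℤˣ) (k : ℕ) : ℤ :=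
  ∑ i : Fin N, ∑ j : Fin N, if (i : ℕ) = (j : ℕ) + k then ((a i : ℤˣ) : ℤ) * ((a j : ℤˣ) : ℤ) else 0

end Vale.Agent.P110
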