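import Vale.Agent.P110.Bdl.B1
import Vale.Agent.P110.H880.Merit

/-! # P110: ultraflat Littlewood polynomials, merit factor and Mahler measure -/

namespace Vale.Agent.P110.H880

open Polynomial Finset

theorem flat_all (c : ℝ) (hc : 0 < c) : ∃ N₀ : ℕ, ∀ N : ℕ, N₀ ≤ N → ∃ a : Fin N → ℤˣ,
    (∀ z : ℂ, ‖z‖ = 1 → (1 - c) * √(N : ℝ) ≤ ‖(lw a).eval z‖ ∧
      ‖(lw a).eval z‖ ≤ (1 + c) * √(N : ℝ)) ∧
    ∑ k ∈ Ico 1 N, ((acf a k : ℤ) : ℝ) ^ 2 ≤ c * (N : ℝ) ^ 2 ∧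
    (1 - c) * √(N : ℝ) ≤ (lw a).mahlerMeasure := by
  set d : ℝ := min (c / 15) (1 / 2) with hd
  have hd0 : 0 < d := by positivity
  have hd1 : d ≤ c / 15 := min_le_left _ _
  have hd2 : d ≤ 1 / 2 := min_le_right _ _
  have hdc : d ≤ c := by linarith
  obtain ⟨N₀, hN⟩ := Vale.Agent.P110.ultraflat d hd0
  refine ⟨N₀ + 1, fun N h => ?_⟩
  obtain ⟨a, ha⟩ := hN N (by omega)
  have hNpos : (0 : ℝ) < N := by exact_mod_cast (by omega : 0 < N)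
  have hs : 0 < √(N : ℝ) := Real.sqrt_pos.2 hNpos
  have ha' : ∀ z : ℂ, ‖z‖ = 1 → (1 - d) * √(N : ℝ) ≤ ‖(lw a).eval z‖ ∧
      ‖(lw a).eval z‖ ≤ (1 + d) * √(N : ℝ) := by
    intro z hz
    rw [eval_lw]
    exact ha z hz
  refine ⟨a, fun z hz => ⟨?_, ?_⟩, ?_, ?_⟩
  · refine le_trans ?_ (ha' z hz).1
    nlinarith
  · refine (ha' z hz).2.trans ?_
    nlinarith
  · have h1 := autocorr a (B := (1 + d) * √(N : ℝ)) (by positivity) (fun z hz => (ha' z hz).2)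
    have h2 : ((1 + d) * √(N : ℝ)) ^ 4 = (1 + d) ^ 4 * (N : ℝ) ^ 2 := by
      rw [mul_pow]
      have : √(N : ℝ) ^ 4 = (N : ℝ) ^ 2 := by
        calc √(N : ℝ) ^ 4 = (√(N : ℝ) ^ 2) ^ 2 := by ring
          _ = _ := by rw [Real.sq_sqrt hNpos.le]
      rw [this]
    rw [h2] at h1
    have h3 : (1 + d) ^ 4 - 1 ≤ c := by
      have h4 : (1 + d) ^ 4 - 1 = d * (4 + 6 * d + 4 * d ^ 2 + d ^ 3) := by ring
      rw [h4]
      have h5 : d ^ 2 ≤ 1 / 4 := by nlinarith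
      have h6 : d ^ 3 ≤ 1 / 8 := by
        calc d ^ 3 ≤ (1 / 2) ^ 3 := pow_le_pow_left₀ hd0.le hd2 3
          _ = 1 / 8 := by norm_num
      nlinarith
    nlinarith [sq_nonneg (N : ℝ)]
  · apply le_trans _ (mahler_ge a (b := (1 - d) * √(N : ℝ)) _ (fun z hz => (ha' z hz).1))
    · nlinarith
    · exact mul_pos (by linarith) hs

end Vale.Agent.P110.H880
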